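import Vale.Agent.P366.H208.G.RicA
import Vale.Agent.P366.Kerr.DefsL

/-! The trace of the Christoffel symbols of a Kerr-Schild metric. -/

open MeasureTheory Metric Filter Topology Set
open scoped ContDiff

noncomputable section
namespace Vale.Agent.P366.SH
open Vale.Agent.P366.Stmt Vale.Agent.P366.T2
open Vale.Agent.P366.H896 (CR KLn KL0)
open Vale.Agent.P366.Kerr (sgn ksL IsKS)

variable {n : ℕ} {l : Fin (n + 1) → E (n + 1) → ℝ} {V : E (n + 1) → ℝ} {p : E (n + 1)}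

/-- near `p` the metric is of the Kerr-Schild form -/
theorem kln_of (hK : IsKS l V p) : ∃ U : Set (E (n + 1)), p ∈ U ∧ KLn sgn (ksL l V) l V U := by
  have h5 : ((5 : ℕ) : WithTop ℕ∞) ≤ ((⊤ : ℕ∞) : WithTop ℕ∞) := by
    have h : ((5 : ℕ) : ℕ∞) ≤ (⊤ : ℕ∞) := le_top
    exact WithTop.coe_le_coe.2 h
  have h1 : ∀ᶠ q in 𝓝 p, ContDiffAt ℝ ((5 : ℕ) : WithTop ℕ∞) V q :=
    (hK.smV.of_le h5).eventually (by simp)
  have h2 : ∀ᶠ q in 𝓝 p, ∀ a, ContDiffAt ℝ ((5 : ℕ) : WithTop ℕ∞) (l a) q :=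
    Filter.eventually_all.2 fun a => ((hK.sml a).of_le h5).eventually (by simp)
  obtain ⟨U, hU, hUo, hp⟩ := _root_.mem_nhds_iff.1 (h1.and (h2.and hK.null))
  refine ⟨U, hp, ⟨hUo, fun a => ?_, fun a x hx => (hU hx).2.1 a, fun x hx => (hU hx).1,
    fun x _ a b => ?_⟩, fun x hx => ?_⟩
  · unfold sgn; split_ifs <;> norm_num
  · unfold ksL; ring
  · have := (hU hx).2.2
    simp only [pow_two] at this
    exact this

theorem ks_hdet (hK : IsKS l V p) (b : Fin (n + 1)) :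
    ∑ a, Stmt.chr (ksL l V) a b a p = 0 := by
  obtain ⟨U, hp, h⟩ := kln_of hK
  exact h.chr_tr hp b

end Vale.Agent.P366.SH
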