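import Vale.Agent.P366.H353.S.D
import Vale.Agent.P366.H353.S.Ks
import Vale.Agent.P366.H208.M.Mix
import Vale.Agent.P366.Kerr.DefsK

/-! The flux density at an interior point, for data with the metric of a Kerr-Schild
hypersurface. -/

open MeasureTheory Metric Filter Topology Set
open scoped ContDiff ENNReal

noncomputable section
namespace Vale.Agent.P366.SH

open Vale.Agent.P366 (pd E)
open Vale.Agent.P366.H353.N
open Vale.Agent.P366.Kerr (NullCone pt sgn ksL ein IsKS IsSliceL indG indK tng con lapse dif alpha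
  beta lieG inn)
open Vale.Agent.P366.KSL
open Vale.Agent.P366.KSD (dens_eq)
open Vale.Agent.P366.GC (Sl Met Nv Tv ip_N ip_symm)
open Vale.Agent.P366.H896 (CR)

variable {n : ℕ} {C : NullCone n} {l : Fin (n + 1) → E (n + 1) → ℝ} {V : E (n + 1) → ℝ}
  {f : E n → ℝ} {D₀ D : Stmt.Exterior n} {y : E n} {ξ : Fin (n + 1) → ℝ}

/-! ### the letters of the statement -/

theorem lieG_eq (G : Stmt.Field (n + 1)) (f : E n → ℝ) (ξ : Fin (n + 1) → ℝ) :
    lieG G f ξ = lie G f ξ := rfl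

theorem inn_eq (g A B : Stmt.Field n) (y : E n) : inn g A B y = dot2 g A B y := rfl

theorem beta_eq (l : Fin (n + 1) → E (n + 1) → ℝ) (V : E (n + 1) → ℝ) (f : E n → ℝ)
    (ξ : Fin (n + 1) → ℝ) (i : Fin n) (y : E n) :
    beta (ksL l V) f ξ i y = bet (ksL l V) f ξ i y := by
  unfold beta bet GC.ip
  rw [Finset.sum_comm]
  refine Finset.sum_congr rfl fun a _ => Finset.sum_congr rfl fun b _ => ?_
  rw [ksL_symm l V (pt (f y) y) b a]
  show ksL l V (pt (f y) y) a b * tng f i y b * ξ a = ksL l V (pt (f y) y) a b * ξ a * tng f i y b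
  ring

theorem alpha_eq' {G : Stmt.Field (n + 1)} {U : Set (E (n + 1))} {W : Set (E n)}
    (hS : Sl G f U W) (hy : y ∈ W) (ξ : Fin (n + 1) → ℝ) :
    alpha G f ξ y = alp G f ξ y := by
  unfold alpha alp
  rw [ip_symm hS hy, ip_N hS hy, neg_neg]

/-- smaller open sets -/
theorem sl_mono {G : Stmt.Field (n + 1)} {U : Set (E (n + 1))} {W W' : Set (E n)}
    (hS : Sl G f U W) (ho : IsOpen W') (hW : W' ⊆ W) : Sl G f U W' :=
  ⟨hS.met, ho, fun y hy => hS.sf y (hW hy), fun y hy => hS.map y (hW hy),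
    fun y hy => hS.neg y (hW hy), fun y hy => hS.det y (hW hy)⟩

theorem alpha_eq (hS : IsSliceL C l V f D₀) (hy : ∀ᶠ z in 𝓝 y, 0 ≤ D₀.F z)
    (ξ : Fin (n + 1) → ℝ) : alpha (ksL l V) f ξ y = alp (ksL l V) f ξ y := by
  obtain ⟨U, W, hyW, hSl⟩ := sl_near hS hy
  exact alpha_eq' hSl hyW ξ

/-! ### the flux density -/

theorem int_eq (hS : IsSliceL C l V f D₀) (hg : ∀ y, 0 ≤ D₀.F y → V (pt (f y) y) ≠ 0 →
      ∃ κ : ℝ, ∀ a, acc l a (pt (f y) y) = κ * l a (pt (f y) y))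
    (hm : D₀.g = D.g) (ht : ∀ y, 0 ≤ D₀.F y → Stmt.tr D.g (dif D₀ D) y = 0)
    (hy : ∀ᶠ z in 𝓝 y, 0 ≤ D₀.F z) (ξ : Fin (n + 1) → ℝ) :
    -∑ b, ξ b * ∑ i, pd i (Zf l V f b i) y +
      ∑ i, Stmt.pd i (Bk (ksL l V) f (dif D₀ D) ξ i) y =
    (lapse (ksL l V) f y)⁻¹ * (dens (ksL l V) f D.K ξ y +
      (alpha (ksL l V) f ξ y * Stmt.normSq D.g (dif D₀ D) y +
        inn D.g (dif D₀ D) (lieG (ksL l V) f ξ) y) / 2) := by
  have hy0 := hy.self_of_nhds
  obtain ⟨U, W₁, hyW₁, hSl₁⟩ := sl_near hS hy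
  set W : Set (E n) := W₁ ∩ interior {z | 0 ≤ D₀.F z} with hW
  have hWo : IsOpen W := hSl₁.opW.inter isOpen_interior
  have hSl : Sl (ksL l V) f U W := sl_mono hSl₁ hWo inter_subset_left
  have hyW : y ∈ W := ⟨hyW₁, mem_interior_iff_mem_nhds.2 hy⟩
  have hW0 : ∀ z ∈ W, 0 ≤ D₀.F z := fun z hz => (interior_subset hz.2 : z ∈ {z | 0 ≤ D₀.F z})
  have hgz : ∀ z, 0 ≤ D₀.F z → D.g z = indG (ksL l V) f z := by
    intro z hz
    rw [← hm]
    funext i j
    exact hS.met z hz i j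
  -- properties of `k`
  have hk : ∀ i j, CR 1 W fun y => dif D₀ D y i j := by
    intro i j z _
    have h1 : ContDiff ℝ ∞ fun y => dif D₀ D y i j :=
      ((D.smooth i j).2).sub ((D₀.smooth i j).2)
    exact (h1.contDiffAt).of_le (KSL.nat_le 1)
  have hks : ∀ y ∈ W, ∀ i j, dif D₀ D y i j = dif D₀ D y j i := by
    intro z _ i j
    unfold dif
    rw [(D.symm z i j).2, (D₀.symm z i j).2]
  have hup : ∀ z, 0 ≤ D₀.F z → ∀ i j, Stmt.up D.g i j z = Stmt.up (indG (ksL l V) f) i j z := by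
    intro z hz i j
    unfold Stmt.up Stmt.mat
    rw [hgz z hz]
  have htr : ∀ y ∈ W, Stmt.tr (indG (ksL l V) f) (dif D₀ D) y = 0 := by
    intro z hz
    rw [← ht z (hW0 z hz)]
    unfold Stmt.tr
    simp only [hup z (hW0 z hz)]
  have hdet : ∀ b, ∑ a, Stmt.chr (ksL l V) a b a (pt (f y) y) = 0 := ks_hdet (hS.ks y hy0)
  have hmain := shear_div hSl hdet hk hks htr ξ hyW
  -- the Einstein tensor
  have hN : ∀ a, Nv (ksL l V) f a y = lapse (ksL l V) f y * (-Nn l V f y a) := by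
    intro a
    unfold Nv Nn
    have h2 : ∑ b, Stmt.up (ksL l V) a b (pt (f y) y) * con f y b =
        ∑ b, con f y b * Stmt.up (ksL l V) b a (pt (f y) y) := by
      refine Finset.sum_congr rfl fun b _ => ?_
      rw [hSl.met.up_symm (hSl.map y hyW) a b]
      ring
    rw [h2]
    ring
  have hlap := GC.lapse_pos hSl hyW
  have hein : -∑ b, ξ b * ∑ i, pd i (Zf l V f b i) y =
      (lapse (ksL l V) f y)⁻¹ * dens (ksL l V) f (indK (ksL l V) f) ξ y := by
    rw [dens_eq hS hg hy ξ, dens_ein hSl hyW ξ]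
    simp only [hN, Finset.mul_sum]
    refine Finset.sum_congr rfl fun a _ => Finset.sum_congr rfl fun b _ => ?_
    field_simp
  -- germs
  have hK : add (indK (ksL l V) f) (dif D₀ D) =ᶠ[𝓝 y] D.K := by
    filter_upwards [hy] with z hz
    funext i j
    unfold add dif
    rw [hS.sff z hz i j]
    ring
  have hdens : dens (ksL l V) f (add (indK (ksL l V) f) (dif D₀ D)) ξ y =
      dens (ksL l V) f D.K ξ y := by
    unfold dens
    rw [mu_germ (EventuallyEq.refl _ _) hK]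
    congr 1
    refine Finset.sum_congr rfl fun j _ => Finset.sum_congr rfl fun i _ => ?_
    rw [mom_germ (EventuallyEq.refl _ _) hK j]
  have hns : Stmt.normSq (indG (ksL l V) f) (dif D₀ D) y = Stmt.normSq D.g (dif D₀ D) y := by
    unfold Stmt.normSq
    simp only [hup y hy0]
  have hin : dot2 (indG (ksL l V) f) (dif D₀ D) (lie (ksL l V) f ξ) y =
      inn D.g (dif D₀ D) (lieG (ksL l V) f ξ) y := by
    rw [inn_eq, lieG_eq]
    unfold dot2
    simp only [hup y hy0]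
  rw [hein, hmain, hdens, hns, hin, ← alpha_eq' hSl hyW ξ]
  ring

end Vale.Agent.P366.SH
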