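import Vale.Agent.P366.H353.S.A

/-! Adding a trace-free tensor to the second fundamental form: the correction of the flux. -/

open MeasureTheory Metric Filter Topology Set
open scoped ContDiff

noncomputable section
namespace Vale.Agent.P366.SH
open Vale.Agent.P366.Stmt Vale.Agent.P366.T2 Vale.Agent.P366.GC
open Vale.Agent.P366.H896 (CR)
open Vale.Agent.P366.Kerr (pt tng con indG indK lapse ein)

variable {n : ℕ}

/-- `β_l = G(ξ, T_l)`, `ξ` a constant vector -/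
def bet (G : Stmt.Field (n + 1)) (f : E n → ℝ) (ξ : Fin (n + 1) → ℝ) (l : Fin n) (y : E n) : ℝ :=
  ip G f (fun a _ => ξ a) (Tv f l) y

/-- `α = - G(ξ, N)` -/
def alp (G : Stmt.Field (n + 1)) (f : E n → ℝ) (ξ : Fin (n + 1) → ℝ) (y : E n) : ℝ :=
  -ip G f (fun a _ => ξ a) (Nv G f) y

/-- the covector `k(β, .)` -/
def kb (h k : Stmt.Field n) (β : Fin n → E n → ℝ) (m : Fin n) (y : E n) : ℝ :=
  ∑ j, ∑ l, Stmt.up h j l y * (k y m j * β l y)

/-- the correction of the flux density: `√g k^i_j β^j` -/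
def Bk (G : Stmt.Field (n + 1)) (f : E n → ℝ) (k : Stmt.Field n) (ξ : Fin (n + 1) → ℝ)
    (i : Fin n) (y : E n) : ℝ :=
  (lapse G f y)⁻¹ * ∑ m, Stmt.up (indG G f) i m y * kb (indG G f) k (bet G f ξ) m y

/-- `(∂_ξ G)(T_i, T_l)` -/
def lie (G : Stmt.Field (n + 1)) (f : E n → ℝ) (ξ : Fin (n + 1) → ℝ) : Stmt.Field n :=
  fun y i l => ∑ a, ∑ b, (∑ c, ξ c * Stmt.pd c (fun q => G q a b) (pt (f y) y)) *
    Tv f i a y * Tv f l b y

/-- `αμ + J(β)` -/
def dens (G : Stmt.Field (n + 1)) (f : E n → ℝ) (K : Stmt.Field n) (ξ : Fin (n + 1) → ℝ)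
    (y : E n) : ℝ :=
  alp G f ξ y * Stmt.mu (indG G f) K y +
    ∑ j, ∑ l, Stmt.up (indG G f) j l y * (Stmt.mom (indG G f) K j y * bet G f ξ l y)

end Vale.Agent.P366.SH
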