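import Vale.Agent.P366.H353.S.C
import Vale.Agent.P366.H474.D.Mu

/-! The change of the energy flux density when a trace-free tensor is added to the second
fundamental form. -/

open MeasureTheory Metric Filter Topology Set
open scoped ContDiff

noncomputable section
namespace Vale.Agent.P366.SH
open Vale.Agent.P366.Stmt Vale.Agent.P366.T2 Vale.Agent.P366.GC
open Vale.Agent.P366.H896 (CR)
open Vale.Agent.P366.Kerr (pt tng con indG indK lapse ein)

variable {n : ℕ} {G : Stmt.Field (n + 1)} {f : E n → ℝ} {U : Set (E (n + 1))} {W : Set (E n)}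
  {y : E n} {k : Stmt.Field n} {ξ : Fin (n + 1) → ℝ}

lemma cr_kb (hS : Sl G f U W) (hk : ∀ i j, CR 1 W fun y => k y i j) (ξ : Fin (n + 1) → ℝ)
    (m : Fin n) : CR 1 W (kb (indG G f) k (bet G f ξ) m) :=
  CR.sum _ fun j => CR.sum _ fun l => (((met_h hS).cr_up j l).le (by norm_num)).mul
    ((hk m j).mul (cr_bet hS ξ l))

/-- the divergence of the correction, without the volume factor -/
theorem div_kb (hS : Sl G f U W) (hk : ∀ i j, CR 1 W fun y => k y i j)
    (hks : ∀ y ∈ W, ∀ i j, k y i j = k y j i) (ξ : Fin (n + 1) → ℝ) (hy : y ∈ W) :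
    ∑ i, (Stmt.pd i (fun y => ∑ m, Stmt.up (indG G f) i m y *
        kb (indG G f) k (bet G f ξ) m y) y +
      (∑ m, Stmt.chr (indG G f) m i m y) * ∑ m, Stmt.up (indG G f) i m y *
        kb (indG G f) k (bet G f ξ) m y) =
    ∑ j, ∑ l, Stmt.up (indG G f) j l y * ((∑ i, ∑ m, Stmt.up (indG G f) i m y *
        cdK (indG G f) k m i j y) * bet G f ξ l y) +
      dot2 (indG G f) k (lie G f ξ) y / 2 -
      alp G f ξ y * dot2 (indG G f) (indK G f) k y := by
  have hM := met_h hS
  rw [div_cov hM (cr_kb hS hk ξ) hy]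
  have e1 : ∀ i m, Stmt.pd i (kb (indG G f) k (bet G f ξ) m) y -
      ∑ d, Stmt.chr (indG G f) d i m y * kb (indG G f) k (bet G f ξ) d y =
      ∑ j, ∑ l, Stmt.up (indG G f) j l y * (cdK (indG G f) k i m j y * bet G f ξ l y) +
      ∑ j, ∑ l, Stmt.up (indG G f) j l y * (k y m j * dxi G f ξ i l y) -
      alp G f ξ y * ∑ j, ∑ l, Stmt.up (indG G f) j l y * (k y m j * indK G f y i l) := by
    intro i m
    have a1 := cov_contr hM hk (fun l => cr_bet hS ξ l) hy i m
    simp only [pd_bet hS hy ξ] at a1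
    rw [show Stmt.pd i (kb (indG G f) k (bet G f ξ) m) y = Stmt.pd i (fun y => ∑ j, ∑ l,
      Stmt.up (indG G f) j l y * (k y m j * bet G f ξ l y)) y from rfl]
    unfold kb
    rw [a1, Finset.mul_sum, ← Finset.sum_add_distrib, ← Finset.sum_sub_distrib]
    refine Finset.sum_congr rfl fun j _ => ?_
    rw [Finset.mul_sum, ← Finset.sum_add_distrib, ← Finset.sum_sub_distrib]
    exact Finset.sum_congr rfl fun l _ => by ring
  simp only [e1, mul_sub, mul_add, Finset.sum_add_distrib, Finset.sum_sub_distrib]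
  rw [contr_dxi hS hy (hks y hy) ξ]
  have e2 : ∑ i, ∑ m, Stmt.up (indG G f) i m y * ∑ j, ∑ l, Stmt.up (indG G f) j l y *
      (cdK (indG G f) k i m j y * bet G f ξ l y) =
      ∑ j, ∑ l, Stmt.up (indG G f) j l y * ((∑ i, ∑ m, Stmt.up (indG G f) i m y *
        cdK (indG G f) k m i j y) * bet G f ξ l y) := by
    have b1 : ∀ j l, Stmt.up (indG G f) j l y * ((∑ i, ∑ m, Stmt.up (indG G f) i m y *
        cdK (indG G f) k m i j y) * bet G f ξ l y) =
        ∑ m, ∑ i, Stmt.up (indG G f) m i y * (Stmt.up (indG G f) j l y *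
          (cdK (indG G f) k m i j y * bet G f ξ l y)) := by
      intro j l
      rw [Finset.sum_comm, Finset.sum_mul, Finset.mul_sum]
      refine Finset.sum_congr rfl fun m _ => ?_
      rw [Finset.sum_mul, Finset.mul_sum]
      exact Finset.sum_congr rfl fun i _ => by rw [hM.up_symm hy i m]; ring
    simp only [b1]
    have b2 : ∀ i m, Stmt.up (indG G f) i m y * ∑ j, ∑ l, Stmt.up (indG G f) j l y *
        (cdK (indG G f) k i m j y * bet G f ξ l y) =
        ∑ j, ∑ l, Stmt.up (indG G f) i m y * (Stmt.up (indG G f) j l y *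
          (cdK (indG G f) k i m j y * bet G f ξ l y)) := by
      intro i m
      rw [Finset.mul_sum]
      exact Finset.sum_congr rfl fun j _ => by rw [Finset.mul_sum]
    simp only [b2]
    calc ∑ i, ∑ m, ∑ j, ∑ l, Stmt.up (indG G f) i m y * (Stmt.up (indG G f) j l y *
          (cdK (indG G f) k i m j y * bet G f ξ l y))
        = ∑ i, ∑ j, ∑ m, ∑ l, Stmt.up (indG G f) i m y * (Stmt.up (indG G f) j l y *
          (cdK (indG G f) k i m j y * bet G f ξ l y)) :=
          Finset.sum_congr rfl fun i _ => Finset.sum_comm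
      _ = ∑ j, ∑ i, ∑ m, ∑ l, Stmt.up (indG G f) i m y * (Stmt.up (indG G f) j l y *
          (cdK (indG G f) k i m j y * bet G f ξ l y)) := Finset.sum_comm
      _ = ∑ j, ∑ i, ∑ l, ∑ m, Stmt.up (indG G f) i m y * (Stmt.up (indG G f) j l y *
          (cdK (indG G f) k i m j y * bet G f ξ l y)) :=
          Finset.sum_congr rfl fun j _ => Finset.sum_congr rfl fun i _ => Finset.sum_comm
      _ = ∑ j, ∑ l, ∑ i, ∑ m, Stmt.up (indG G f) i m y * (Stmt.up (indG G f) j l y *
          (cdK (indG G f) k i m j y * bet G f ξ l y)) :=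
          Finset.sum_congr rfl fun j _ => Finset.sum_comm
  have e3 : ∑ i, ∑ m, Stmt.up (indG G f) i m y * (alp G f ξ y *
      ∑ j, ∑ l, Stmt.up (indG G f) j l y * (k y m j * indK G f y i l)) =
      alp G f ξ y * dot2 (indG G f) (indK G f) k y := by
    unfold dot2
    rw [Finset.mul_sum]
    refine Finset.sum_congr rfl fun i _ => ?_
    have b1 : ∀ m, Stmt.up (indG G f) i m y * (alp G f ξ y *
        ∑ j, ∑ l, Stmt.up (indG G f) j l y * (k y m j * indK G f y i l)) =
        ∑ l, ∑ j, alp G f ξ y * (Stmt.up (indG G f) i m y * Stmt.up (indG G f) l j y *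
          indK G f y i l * k y m j) := by
      intro m
      rw [Finset.sum_comm, Finset.mul_sum, Finset.mul_sum]
      refine Finset.sum_congr rfl fun l _ => ?_
      rw [Finset.mul_sum, Finset.mul_sum]
      exact Finset.sum_congr rfl fun j _ => by rw [hM.up_symm hy j l]; ring
    simp only [b1]
    rw [Finset.sum_comm, Finset.mul_sum]
    refine Finset.sum_congr rfl fun l _ => ?_
    rw [Finset.mul_sum]
    refine Finset.sum_congr rfl fun m _ => ?_
    rw [Finset.mul_sum]
  rw [e2, e3]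

/-- **The change of the flux density.** -/
theorem shear_div (hS : Sl G f U W) (hdet : ∀ b, ∑ a, Stmt.chr G a b a (pt (f y) y) = 0)
    (hk : ∀ i j, CR 1 W fun y => k y i j) (hks : ∀ y ∈ W, ∀ i j, k y i j = k y j i)
    (ht : ∀ y ∈ W, Stmt.tr (indG G f) k y = 0) (ξ : Fin (n + 1) → ℝ) (hy : y ∈ W) :
    ∑ i, Stmt.pd i (Bk G f k ξ i) y = (lapse G f y)⁻¹ *
      (dens G f (add (indK G f) k) ξ y - dens G f (indK G f) ξ y +
        alp G f ξ y * Stmt.normSq (indG G f) k y / 2 +
        dot2 (indG G f) k (lie G f ξ) y / 2) := by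
  have hM := met_h hS
  have hX : ∀ i, CR 1 W fun y => ∑ m, Stmt.up (indG G f) i m y *
      kb (indG G f) k (bet G f ξ) m y := fun i =>
    CR.sum _ fun m => ((hM.cr_up i m).le (by norm_num)).mul (cr_kb hS hk ξ m)
  have h1 : ∀ i, Stmt.pd i (Bk G f k ξ i) y = (lapse G f y)⁻¹ *
      (Stmt.pd i (fun y => ∑ m, Stmt.up (indG G f) i m y *
        kb (indG G f) k (bet G f ξ) m y) y +
      (∑ m, Stmt.chr (indG G f) m i m y) * ∑ m, Stmt.up (indG G f) i m y *
        kb (indG G f) k (bet G f ξ) m y) := by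
    intro i
    have a1 : HP i (Bk G f k ξ i) _ y := (pd_vol hS hy hdet i).mul (CR.hp (hX i) hy i)
    rw [a1.pd]
    ring
  simp only [h1]
  rw [← Finset.mul_sum, div_kb hS hk hks ξ hy]
  congr 1
  have hK : ∀ i j, CR 1 W fun y => indK G f y i j := fun i j =>
    (cr_K hS i j).le (by norm_num)
  have hKs : ∀ y ∈ W, ∀ i j, indK G f y i j = indK G f y j i := fun y hy i j =>
    K_symm hS hy i j
  unfold dens
  rw [mu_add hM hy (ht y hy)]
  simp only [mom_add hM hK hk hKs hks ht hy, add_mul, mul_add, Finset.sum_add_distrib]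
  ring

/-- the flux density in terms of the Einstein tensor -/
theorem dens_ein (hS : Sl G f U W) (hy : y ∈ W) (ξ : Fin (n + 1) → ℝ) :
    dens G f (indK G f) ξ y = ∑ a, ∑ b, ein G a b (pt (f y) y) * Nv G f a y * ξ b := by
  have h1 := expand hS hy (fun a _ => ξ a)
  have h2 : ∀ a, ξ a = ∑ j, ∑ l, Stmt.up (indG G f) j l y * bet G f ξ j y * Tv f l a y +
      alp G f ξ y * Nv G f a y := by
    intro a
    have := h1 a
    unfold bet alp
    rw [this]
    ring
  unfold dens
  rw [mu_eq hS hy]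
  simp only [mom_ein hS hy]
  have e1 : ∀ a b, ein G a b (pt (f y) y) * Nv G f a y * ξ b =
      ∑ j, ∑ l, Stmt.up (indG G f) j l y * bet G f ξ j y *
        (ein G a b (pt (f y) y) * Nv G f a y * Tv f l b y) +
      alp G f ξ y * (ein G a b (pt (f y) y) * Nv G f a y * Nv G f b y) := by
    intro a b
    rw [h2 b, mul_add, Finset.mul_sum]
    congr 1
    · refine Finset.sum_congr rfl fun j _ => ?_
      rw [Finset.mul_sum]
      exact Finset.sum_congr rfl fun l _ => by ring
    · ring
  simp only [e1, Finset.sum_add_distrib, ← Finset.mul_sum]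
  rw [add_comm]
  congr 1
  have hM := met_h hS
  have e2 : ∑ j, ∑ l, Stmt.up (indG G f) j l y *
      ((∑ a, ∑ b, ein G a b (pt (f y) y) * Nv G f a y * Tv f j b y) * bet G f ξ l y) =
      ∑ j, ∑ l, ∑ a, ∑ b, Stmt.up (indG G f) j l y * bet G f ξ j y *
        (ein G a b (pt (f y) y) * Nv G f a y * Tv f l b y) := by
    rw [Finset.sum_comm]
    refine Finset.sum_congr rfl fun j _ => Finset.sum_congr rfl fun l _ => ?_
    rw [Finset.sum_mul, Finset.mul_sum]
    refine Finset.sum_congr rfl fun a _ => ?_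
    rw [Finset.sum_mul, Finset.mul_sum]
    exact Finset.sum_congr rfl fun b _ => by rw [hM.up_symm hy l j]; ring
  rw [e2]
  calc _ = ∑ j, ∑ a, ∑ l, ∑ b, Stmt.up (indG G f) j l y * bet G f ξ j y *
        (ein G a b (pt (f y) y) * Nv G f a y * Tv f l b y) :=
        Finset.sum_congr rfl fun j _ => Finset.sum_comm
    _ = ∑ a, ∑ j, ∑ l, ∑ b, Stmt.up (indG G f) j l y * bet G f ξ j y *
        (ein G a b (pt (f y) y) * Nv G f a y * Tv f l b y) := Finset.sum_comm
    _ = ∑ a, ∑ j, ∑ b, ∑ l, Stmt.up (indG G f) j l y * bet G f ξ j y *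
        (ein G a b (pt (f y) y) * Nv G f a y * Tv f l b y) :=
        Finset.sum_congr rfl fun a _ => Finset.sum_congr rfl fun j _ => Finset.sum_comm
    _ = ∑ a, ∑ b, ∑ j, ∑ l, Stmt.up (indG G f) j l y * bet G f ξ j y *
        (ein G a b (pt (f y) y) * Nv G f a y * Tv f l b y) :=
        Finset.sum_congr rfl fun a _ => Finset.sum_comm

end Vale.Agent.P366.SH
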