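import Vale.Agent.P366.H896.D.M

/-! Adding a trace-free tensor to the second fundamental form: algebra and the divergence of a
contraction. -/

open MeasureTheory Metric Filter Topology Set
open scoped ContDiff

noncomputable section
namespace Vale.Agent.P366.SH
open Vale.Agent.P366.Stmt Vale.Agent.P366.T2 Vale.Agent.P366.GC
open Vale.Agent.P366.H896 (CR)

variable {n : ℕ} {W : Set (E n)} {y : E n} {h K k : Stmt.Field n}

/-- the sum of two tensors -/
def add (K k : Stmt.Field n) : Stmt.Field n := fun y i j => K y i j + k y i j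

/-- the scalar product of two tensors -/
def dot2 (h A B : Stmt.Field n) (y : E n) : ℝ :=
  ∑ i, ∑ j, ∑ p, ∑ q, Stmt.up h i p y * Stmt.up h j q y * A y i j * B y p q

lemma tr_add (h K k : Stmt.Field n) (y : E n) :
    Stmt.tr h (add K k) y = Stmt.tr h K y + Stmt.tr h k y := by
  unfold Stmt.tr add
  simp only [mul_add, Finset.sum_add_distrib]

lemma dot2_symm (hM : Met h W) (hy : y ∈ W) (A B : Stmt.Field n) :
    dot2 h A B y = dot2 h B A y := by
  unfold dot2
  have e1 : ∀ i j, ∑ p, ∑ q, Stmt.up h i p y * Stmt.up h j q y * A y i j * B y p q =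
      ∑ p, ∑ q, Stmt.up h p i y * Stmt.up h q j y * B y p q * A y i j := by
    intro i j
    exact Finset.sum_congr rfl fun p _ => Finset.sum_congr rfl fun q _ => by
      rw [hM.up_symm hy i p, hM.up_symm hy j q]; ring
  simp only [e1]
  calc ∑ i, ∑ j, ∑ p, ∑ q, Stmt.up h p i y * Stmt.up h q j y * B y p q * A y i j
      = ∑ i, ∑ p, ∑ j, ∑ q, Stmt.up h p i y * Stmt.up h q j y * B y p q * A y i j :=
        Finset.sum_congr rfl fun i _ => Finset.sum_comm
    _ = ∑ p, ∑ i, ∑ j, ∑ q, Stmt.up h p i y * Stmt.up h q j y * B y p q * A y i j :=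
        Finset.sum_comm
    _ = ∑ p, ∑ i, ∑ q, ∑ j, Stmt.up h p i y * Stmt.up h q j y * B y p q * A y i j :=
        Finset.sum_congr rfl fun p _ => Finset.sum_congr rfl fun i _ => Finset.sum_comm
    _ = ∑ p, ∑ q, ∑ i, ∑ j, Stmt.up h p i y * Stmt.up h q j y * B y p q * A y i j :=
        Finset.sum_congr rfl fun p _ => Finset.sum_comm

lemma normSq_add (hM : Met h W) (hy : y ∈ W) (K k : Stmt.Field n) :
    Stmt.normSq h (add K k) y =
      Stmt.normSq h K y + 2 * dot2 h K k y + Stmt.normSq h k y := by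
  have e0 : Stmt.normSq h (add K k) y = Stmt.normSq h K y + dot2 h K k y + dot2 h k K y +
      Stmt.normSq h k y := by
    unfold Stmt.normSq dot2 add
    simp only [← Finset.sum_add_distrib]
    exact Finset.sum_congr rfl fun i _ => Finset.sum_congr rfl fun j _ =>
      Finset.sum_congr rfl fun p _ => Finset.sum_congr rfl fun q _ => by ring
  rw [e0, dot2_symm hM hy k K]
  ring

/-- the energy density -/
theorem mu_add (hM : Met h W) (hy : y ∈ W) (ht : Stmt.tr h k y = 0) :
    Stmt.mu h (add K k) y = Stmt.mu h K y - dot2 h K k y - Stmt.normSq h k y / 2 := by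
  unfold Stmt.mu
  rw [tr_add, normSq_add hM hy, ht]
  ring

lemma cdK_add (hK : ∀ i j, CR 1 W fun y => K y i j) (hk : ∀ i j, CR 1 W fun y => k y i j)
    (hy : y ∈ W) (c i j : Fin n) :
    cdK h (add K k) c i j y = cdK h K c i j y + cdK h k c i j y := by
  unfold cdK add
  rw [((hp_K hK hy c i j).add (hp_K hk hy c i j)).pd]
  have e1 : ∀ l, Stmt.chr h l c i y * (K y l j + k y l j) +
      Stmt.chr h l c j y * (K y i l + k y i l) =
      (Stmt.chr h l c i y * K y l j + Stmt.chr h l c j y * K y i l) +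
      (Stmt.chr h l c i y * k y l j + Stmt.chr h l c j y * k y i l) := fun l => by ring
  simp only [e1, Finset.sum_add_distrib]
  ring

/-- the momentum density -/
theorem mom_add (hM : Met h W) (hK : ∀ i j, CR 1 W fun y => K y i j)
    (hk : ∀ i j, CR 1 W fun y => k y i j) (hKs : ∀ y ∈ W, ∀ i j, K y i j = K y j i)
    (hks : ∀ y ∈ W, ∀ i j, k y i j = k y j i) (ht : ∀ y ∈ W, Stmt.tr h k y = 0)
    (hy : y ∈ W) (j : Fin n) :
    Stmt.mom h (add K k) j y = Stmt.mom h K j y +
      ∑ i, ∑ m, Stmt.up h i m y * cdK h k m i j y := by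
  have hA : ∀ i j, CR 1 W fun y => add K k y i j := fun i j => (hK i j).add (hk i j)
  have hAs : ∀ y ∈ W, ∀ i j, add K k y i j = add K k y j i := fun y hy i j => by
    unfold add; rw [hKs y hy i j, hks y hy i j]
  rw [mom_eq hM hA hAs hy j, mom_eq hM hK hKs hy j]
  have h0 : ∑ i, ∑ m, Stmt.up h i m y * cdK h k j i m y = 0 := by
    have h1 := hp_tr hM hk hy j
    have h2 : HP j (Stmt.tr h k) 0 y := (HP.const j 0 y).congr (by
      filter_upwards [hM.op.mem_nhds hy] with z hz
      exact ht z hz)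
    rw [← h1.pd, h2.pd]
  have e1 : ∀ i m, Stmt.up h i m y * (cdK h (add K k) m i j y - cdK h (add K k) j i m y) =
      Stmt.up h i m y * (cdK h K m i j y - cdK h K j i m y) +
      (Stmt.up h i m y * cdK h k m i j y - Stmt.up h i m y * cdK h k j i m y) := by
    intro i m
    rw [cdK_add hK hk hy, cdK_add hK hk hy]
    ring
  simp only [e1, Finset.sum_add_distrib, Finset.sum_sub_distrib]
  rw [h0]
  ring

/-- the divergence of a covector field -/
theorem div_cov (hM : Met h W) {θ : Fin n → E n → ℝ} (hθ : ∀ m, CR 1 W (θ m)) (hy : y ∈ W) :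
    ∑ i, (Stmt.pd i (fun y => ∑ m, Stmt.up h i m y * θ m y) y +
      (∑ m, Stmt.chr h m i m y) * ∑ m, Stmt.up h i m y * θ m y) =
    ∑ i, ∑ m, Stmt.up h i m y * (Stmt.pd i (θ m) y - ∑ d, Stmt.chr h d i m y * θ d y) := by
  have h1 : ∀ i, Stmt.pd i (fun y => ∑ m, Stmt.up h i m y * θ m y) y =
      ∑ m, (Stmt.pd i (Stmt.up h i m) y * θ m y + Stmt.up h i m y * Stmt.pd i (θ m) y) :=
    fun i => (HP.sum _ fun m _ => (hM.hp_up hy i i m).mul (CR.hp (hθ m) hy i) :
      HP i (fun y => ∑ m, Stmt.up h i m y * θ m y) _ y).pd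
  simp only [h1, hM.pd_up hy]
  have e1 : ∀ i m, -(∑ d, Stmt.chr h i i d y * Stmt.up h d m y +
      ∑ d, Stmt.chr h m i d y * Stmt.up h i d y) * θ m y +
      Stmt.up h i m y * Stmt.pd i (θ m) y =
      Stmt.up h i m y * Stmt.pd i (θ m) y -
        ∑ d, Stmt.chr h i i d y * (Stmt.up h d m y * θ m y) -
        ∑ d, Stmt.up h i d y * (Stmt.chr h m i d y * θ m y) := by
    intro i m
    have a1 : ∑ d, Stmt.chr h i i d y * (Stmt.up h d m y * θ m y) =
        (∑ d, Stmt.chr h i i d y * Stmt.up h d m y) * θ m y := by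
      rw [Finset.sum_mul]
      exact Finset.sum_congr rfl fun d _ => by ring
    have a2 : ∑ d, Stmt.up h i d y * (Stmt.chr h m i d y * θ m y) =
        (∑ d, Stmt.chr h m i d y * Stmt.up h i d y) * θ m y := by
      rw [Finset.sum_mul]
      exact Finset.sum_congr rfl fun d _ => by ring
    rw [a1, a2]
    ring
  simp only [e1, mul_sub, Finset.sum_add_distrib, Finset.sum_sub_distrib]
  have e2 : ∑ i, (∑ m, Stmt.chr h m i m y) * ∑ m, Stmt.up h i m y * θ m y =
      ∑ i, ∑ m, ∑ d, Stmt.chr h i i d y * (Stmt.up h d m y * θ m y) := by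
    have b1 : ∀ i, (∑ m, Stmt.chr h m i m y) * ∑ m, Stmt.up h i m y * θ m y =
        ∑ c, ∑ m, Stmt.chr h c c i y * (Stmt.up h i m y * θ m y) := by
      intro i
      rw [Finset.sum_mul]
      refine Finset.sum_congr rfl fun c _ => ?_
      rw [Finset.mul_sum]
      exact Finset.sum_congr rfl fun m _ => by rw [hM.chr_symm hy c i c]
    simp only [b1]
    rw [Finset.sum_comm]
    exact Finset.sum_congr rfl fun c _ => Finset.sum_comm
  have e3 : ∑ i, ∑ m, ∑ d, Stmt.up h i d y * (Stmt.chr h m i d y * θ m y) =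
      ∑ i, ∑ m, Stmt.up h i m y * ∑ d, Stmt.chr h d i m y * θ d y := by
    refine Finset.sum_congr rfl fun i _ => ?_
    rw [Finset.sum_comm]
    exact Finset.sum_congr rfl fun m _ => by rw [Finset.mul_sum]
  rw [e2, e3]
  ring

/-- the covariant derivative of the covector `k(β, .)` -/
theorem cov_contr (hM : Met h W) (hk : ∀ i j, CR 1 W fun y => k y i j)
    {β : Fin n → E n → ℝ} (hβ : ∀ l, CR 1 W (β l)) (hy : y ∈ W) (i m : Fin n) :
    Stmt.pd i (fun y => ∑ j, ∑ l, Stmt.up h j l y * (k y m j * β l y)) y -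
      ∑ d, Stmt.chr h d i m y * ∑ j, ∑ l, Stmt.up h j l y * (k y d j * β l y) =
    ∑ j, ∑ l, Stmt.up h j l y * (cdK h k i m j y * β l y +
      k y m j * (Stmt.pd i (β l) y - ∑ d, Stmt.chr h d i l y * β d y)) := by
  have h1 : Stmt.pd i (fun y => ∑ j, ∑ l, Stmt.up h j l y * (k y m j * β l y)) y =
      ∑ j, ∑ l, (Stmt.pd i (Stmt.up h j l) y * (k y m j * β l y) +
        Stmt.up h j l y * (Stmt.pd i (fun y => k y m j) y * β l y +
          k y m j * Stmt.pd i (β l) y)) :=
    (HP.sum _ fun j _ => HP.sum _ fun l _ => (hM.hp_up hy i j l).mul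
      ((hp_K hk hy i m j).mul (CR.hp (hβ l) hy i)) :
      HP i (fun y => ∑ j, ∑ l, Stmt.up h j l y * (k y m j * β l y)) _ y).pd
  rw [h1]
  simp only [hM.pd_up hy]
  have e1 : ∀ j l, -(∑ d, Stmt.chr h j i d y * Stmt.up h d l y +
      ∑ d, Stmt.chr h l i d y * Stmt.up h j d y) * (k y m j * β l y) +
      Stmt.up h j l y * (Stmt.pd i (fun y => k y m j) y * β l y +
          k y m j * Stmt.pd i (β l) y) =
      Stmt.up h j l y * (Stmt.pd i (fun y => k y m j) y * β l y) +
      Stmt.up h j l y * (k y m j * Stmt.pd i (β l) y) -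
        ∑ d, Stmt.up h d l y * (Stmt.chr h j i d y * k y m j * β l y) -
        ∑ d, Stmt.up h j d y * (k y m j * (Stmt.chr h l i d y * β l y)) := by
    intro j l
    have a1 : ∑ d, Stmt.up h d l y * (Stmt.chr h j i d y * k y m j * β l y) =
        (∑ d, Stmt.chr h j i d y * Stmt.up h d l y) * (k y m j * β l y) := by
      rw [Finset.sum_mul]
      exact Finset.sum_congr rfl fun d _ => by ring
    have a2 : ∑ d, Stmt.up h j d y * (k y m j * (Stmt.chr h l i d y * β l y)) =
        (∑ d, Stmt.chr h l i d y * Stmt.up h j d y) * (k y m j * β l y) := by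
      rw [Finset.sum_mul]
      exact Finset.sum_congr rfl fun d _ => by ring
    rw [a1, a2]
    ring
  have e2 : ∀ j l, Stmt.up h j l y * (cdK h k i m j y * β l y +
      k y m j * (Stmt.pd i (β l) y - ∑ d, Stmt.chr h d i l y * β d y)) =
      Stmt.up h j l y * (Stmt.pd i (fun y => k y m j) y * β l y) +
      Stmt.up h j l y * (k y m j * Stmt.pd i (β l) y) -
      ∑ d, Stmt.chr h d i m y * (Stmt.up h j l y * (k y d j * β l y)) -
      ∑ d, Stmt.up h j l y * (Stmt.chr h d i j y * k y m d * β l y) -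
      ∑ d, Stmt.up h j l y * (k y m j * (Stmt.chr h d i l y * β d y)) := by
    intro j l
    unfold cdK
    have a1 : ∑ d, Stmt.chr h d i m y * (Stmt.up h j l y * (k y d j * β l y)) =
        Stmt.up h j l y * ((∑ d, Stmt.chr h d i m y * k y d j) * β l y) := by
      rw [Finset.sum_mul, Finset.mul_sum]
      exact Finset.sum_congr rfl fun d _ => by ring
    have a2 : ∑ d, Stmt.up h j l y * (Stmt.chr h d i j y * k y m d * β l y) =
        Stmt.up h j l y * ((∑ d, Stmt.chr h d i j y * k y m d) * β l y) := by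
      rw [Finset.sum_mul, Finset.mul_sum]
    have a3 : ∑ d, Stmt.up h j l y * (k y m j * (Stmt.chr h d i l y * β d y)) =
        Stmt.up h j l y * (k y m j * ∑ d, Stmt.chr h d i l y * β d y) := by
      rw [Finset.mul_sum, Finset.mul_sum]
    rw [a1, a2, a3, Finset.sum_add_distrib]
    ring
  simp only [e1, e2, Finset.sum_add_distrib, Finset.sum_sub_distrib]
  have e3 : ∑ d, Stmt.chr h d i m y * ∑ j, ∑ l, Stmt.up h j l y * (k y d j * β l y) =
      ∑ j, ∑ l, ∑ d, Stmt.chr h d i m y * (Stmt.up h j l y * (k y d j * β l y)) := by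
    simp only [Finset.mul_sum]
    rw [Finset.sum_comm]
    exact Finset.sum_congr rfl fun j _ => Finset.sum_comm
  have e4 : ∑ j, ∑ l, ∑ d, Stmt.up h d l y * (Stmt.chr h j i d y * k y m j * β l y) =
      ∑ j, ∑ l, ∑ d, Stmt.up h j l y * (Stmt.chr h d i j y * k y m d * β l y) := by
    have b1 : ∀ j, ∑ l, ∑ d, Stmt.up h d l y * (Stmt.chr h j i d y * k y m j * β l y) =
        ∑ d, ∑ l, Stmt.up h d l y * (Stmt.chr h j i d y * k y m j * β l y) :=
      fun j => Finset.sum_comm
    simp only [b1]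
    rw [Finset.sum_comm]
    exact Finset.sum_congr rfl fun d _ => Finset.sum_comm
  have e5 : ∑ j, ∑ l, ∑ d, Stmt.up h j d y * (k y m j * (Stmt.chr h l i d y * β l y)) =
      ∑ j, ∑ l, ∑ d, Stmt.up h j l y * (k y m j * (Stmt.chr h d i l y * β d y)) :=
    Finset.sum_congr rfl fun j _ => Finset.sum_comm
  rw [e3, e4, e5]
  ring

end Vale.Agent.P366.SH
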