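import Vale.Agent.P366.H353.S.Defs
import Vale.Agent.P366.H896.D.C

/-! The covariant derivative of the shift of a constant vector. -/

open MeasureTheory Metric Filter Topology Set
open scoped ContDiff

noncomputable section
namespace Vale.Agent.P366.SH
open Vale.Agent.P366.Stmt Vale.Agent.P366.T2 Vale.Agent.P366.GC
open Vale.Agent.P366.H896 (CR)
open Vale.Agent.P366.Kerr (pt tng con indG indK lapse ein)

variable {n : ℕ} {G : Stmt.Field (n + 1)} {f : E n → ℝ} {U : Set (E (n + 1))} {W : Set (E n)}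
  {y : E n} {k : Stmt.Field n} {ξ : Fin (n + 1) → ℝ}

/-- `G(∇_{T_i} ξ, T_l)` -/
def dxi (G : Stmt.Field (n + 1)) (f : E n → ℝ) (ξ : Fin (n + 1) → ℝ) (i l : Fin n) (y : E n) : ℝ :=
  ip G f (Dv G f i (fun a _ => ξ a)) (Tv f l) y

lemma cr_bet (hS : Sl G f U W) (ξ : Fin (n + 1) → ℝ) (l : Fin n) : CR 1 W (bet G f ξ l) := by
  have : CR 4 W fun y => ∑ a, ∑ b, G (pt (f y) y) a b * ξ a * Tv f l b y :=
    CR.sum _ fun a => CR.sum _ fun b =>
      ((cr_comp hS le_rfl (hS.met.sm a b)).mul (CR.const _)).mul (cr_T hS l b)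
  exact this.le (by norm_num)

lemma pd_bet (hS : Sl G f U W) (hy : y ∈ W) (ξ : Fin (n + 1) → ℝ) (i l : Fin n) :
    Stmt.pd i (bet G f ξ l) y - ∑ d, Stmt.chr (indG G f) d i l y * bet G f ξ d y =
      dxi G f ξ i l y - alp G f ξ y * indK G f y i l := by
  have h1 := (hp_ip hS (X := fun a _ => ξ a) (Y := Tv f l) (fun a => CR.const _)
    (fun a => (cr_T hS l a).le (by norm_num)) hy i).pd
  have h2 : ∀ a, Dv G f i (Tv f l) a y = indK G f y i l * Nv G f a y +
      ∑ j, Stmt.chr (indG G f) j i l y * Tv f j a y := fun a => by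
    rw [gauss_formula hS hy i l a]; ring
  have h3 := ip_lin h2 (fun a _ => ξ a)
  rw [h3] at h1
  have e1 : Stmt.pd i (bet G f ξ l) y = Stmt.pd i (ip G f (fun a _ => ξ a) (Tv f l)) y := rfl
  have e2 : ∑ d, Stmt.chr (indG G f) d i l y * bet G f ξ d y =
      ∑ j, Stmt.chr (indG G f) j i l y * ip G f (fun a _ => ξ a) (Tv f j) y := rfl
  rw [e1, h1, e2]
  unfold dxi alp
  ring

lemma dxi_low (hS : Sl G f U W) (hy : y ∈ W) (ξ : Fin (n + 1) → ℝ) (i l : Fin n) :
    dxi G f ξ i l y = ∑ b, ∑ d, (∑ c, ξ c * ((Stmt.pd b (fun q => G q c d) (pt (f y) y) +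
      Stmt.pd c (fun q => G q b d) (pt (f y) y) -
        Stmt.pd d (fun q => G q b c) (pt (f y) y)) / 2)) * Tv f i b y * Tv f l d y := by
  unfold dxi ip Dv
  have e0 : ∀ a : Fin (n + 1), Stmt.pd i (fun _ : E n => ξ a) y = 0 := fun a =>
    (HP.const i (ξ a) y).pd
  simp only [e0, zero_add]
  have hl := fun d b c => hS.met.low (hS.map y hy) d b c
  have e1 : ∀ b d, (∑ c, ξ c * ((Stmt.pd b (fun q => G q c d) (pt (f y) y) +
      Stmt.pd c (fun q => G q b d) (pt (f y) y) -
        Stmt.pd d (fun q => G q b c) (pt (f y) y)) / 2)) * Tv f i b y * Tv f l d y =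
      ∑ c, ∑ a, G (pt (f y) y) d a * Stmt.chr G a b c (pt (f y) y) * ξ c * Tv f i b y *
        Tv f l d y := by
    intro b d
    rw [Finset.sum_mul, Finset.sum_mul]
    refine Finset.sum_congr rfl fun c _ => ?_
    rw [← hl d b c, ← Finset.sum_mul, ← Finset.sum_mul, ← Finset.sum_mul]
    ring
  simp only [e1]
  have e2 : ∀ a d, G (pt (f y) y) a d *
      (∑ b, ∑ c, Stmt.chr G a b c (pt (f y) y) * Tv f i b y * ξ c) * Tv f l d y =
      ∑ b, ∑ c, G (pt (f y) y) d a * Stmt.chr G a b c (pt (f y) y) * ξ c * Tv f i b y *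
        Tv f l d y := by
    intro a d
    rw [Finset.mul_sum, Finset.sum_mul]
    refine Finset.sum_congr rfl fun b _ => ?_
    rw [Finset.mul_sum, Finset.sum_mul]
    exact Finset.sum_congr rfl fun c _ => by rw [hS.met.symm _ (hS.map y hy) a d]; ring
  simp only [e2]
  calc ∑ a, ∑ d, ∑ b, ∑ c, G (pt (f y) y) d a * Stmt.chr G a b c (pt (f y) y) * ξ c *
        Tv f i b y * Tv f l d y
      = ∑ d, ∑ a, ∑ b, ∑ c, G (pt (f y) y) d a * Stmt.chr G a b c (pt (f y) y) * ξ c *
        Tv f i b y * Tv f l d y := Finset.sum_comm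
    _ = ∑ d, ∑ b, ∑ a, ∑ c, G (pt (f y) y) d a * Stmt.chr G a b c (pt (f y) y) * ξ c *
        Tv f i b y * Tv f l d y := Finset.sum_congr rfl fun d _ => Finset.sum_comm
    _ = ∑ b, ∑ d, ∑ a, ∑ c, G (pt (f y) y) d a * Stmt.chr G a b c (pt (f y) y) * ξ c *
        Tv f i b y * Tv f l d y := Finset.sum_comm
    _ = ∑ b, ∑ d, ∑ c, ∑ a, G (pt (f y) y) d a * Stmt.chr G a b c (pt (f y) y) * ξ c *
        Tv f i b y * Tv f l d y := Finset.sum_congr rfl fun b _ =>
          Finset.sum_congr rfl fun d _ => Finset.sum_comm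

/-- the Lie derivative of `G` in the direction of the constant vector `ξ` -/
lemma dxi_symm (hS : Sl G f U W) (hy : y ∈ W) (ξ : Fin (n + 1) → ℝ) (i l : Fin n) :
    dxi G f ξ i l y + dxi G f ξ l i y = lie G f ξ y i l := by
  have e0 : ∑ b, ∑ d, (∑ c, ξ c * ((Stmt.pd b (fun q => G q c d) (pt (f y) y) +
      Stmt.pd c (fun q => G q b d) (pt (f y) y) -
        Stmt.pd d (fun q => G q b c) (pt (f y) y)) / 2)) * Tv f l b y * Tv f i d y =
      ∑ b, ∑ d, (∑ c, ξ c * ((Stmt.pd d (fun q => G q b c) (pt (f y) y) +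
      Stmt.pd c (fun q => G q b d) (pt (f y) y) -
        Stmt.pd b (fun q => G q c d) (pt (f y) y)) / 2)) * Tv f i b y * Tv f l d y := by
    rw [Finset.sum_comm]
    refine Finset.sum_congr rfl fun b _ => Finset.sum_congr rfl fun d _ => ?_
    have hp := fun c a b => hS.met.pdg_symm (hS.map y hy) c a b
    have e1 : ∀ c, ξ c * ((Stmt.pd d (fun q => G q c b) (pt (f y) y) +
      Stmt.pd c (fun q => G q d b) (pt (f y) y) -
        Stmt.pd b (fun q => G q d c) (pt (f y) y)) / 2) =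
        ξ c * ((Stmt.pd d (fun q => G q b c) (pt (f y) y) +
      Stmt.pd c (fun q => G q b d) (pt (f y) y) -
        Stmt.pd b (fun q => G q c d) (pt (f y) y)) / 2) := by
      intro c
      rw [hp d c b, hp c d b, hp b d c]
    simp only [e1]
    ring
  rw [dxi_low hS hy, dxi_low hS hy, e0, ← Finset.sum_add_distrib]
  unfold lie
  refine Finset.sum_congr rfl fun b _ => ?_
  rw [← Finset.sum_add_distrib]
  refine Finset.sum_congr rfl fun d _ => ?_
  rw [← add_mul, ← add_mul, ← Finset.sum_add_distrib]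
  congr 2
  exact Finset.sum_congr rfl fun c _ => by ring

/-- the contraction of `k` with `∇ξ` -/
lemma contr_dxi (hS : Sl G f U W) (hy : y ∈ W) (hks : ∀ i j, k y i j = k y j i)
    (ξ : Fin (n + 1) → ℝ) :
    ∑ i, ∑ m, Stmt.up (indG G f) i m y * ∑ j, ∑ l, Stmt.up (indG G f) j l y *
      (k y m j * dxi G f ξ i l y) = dot2 (indG G f) k (lie G f ξ) y / 2 := by
  have hM := met_h hS
  set h := indG G f with hh
  have e1 : ∑ i, ∑ m, Stmt.up h i m y * ∑ j, ∑ l, Stmt.up h j l y *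
      (k y m j * dxi G f ξ i l y) =
      ∑ m, ∑ j, ∑ i, ∑ l, Stmt.up h m i y * Stmt.up h j l y * k y m j * dxi G f ξ i l y := by
    have a1 : ∀ i m, Stmt.up h i m y * ∑ j, ∑ l, Stmt.up h j l y *
        (k y m j * dxi G f ξ i l y) =
        ∑ j, ∑ l, Stmt.up h m i y * Stmt.up h j l y * k y m j * dxi G f ξ i l y := by
      intro i m
      rw [Finset.mul_sum]
      refine Finset.sum_congr rfl fun j _ => ?_
      rw [Finset.mul_sum]
      exact Finset.sum_congr rfl fun l _ => by rw [hM.up_symm hy i m]; ring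
    simp only [a1]
    rw [Finset.sum_comm]
    exact Finset.sum_congr rfl fun m _ => Finset.sum_comm
  have e2 : ∑ m, ∑ j, ∑ i, ∑ l, Stmt.up h m i y * Stmt.up h j l y * k y m j *
        dxi G f ξ i l y =
      ∑ m, ∑ j, ∑ i, ∑ l, Stmt.up h m i y * Stmt.up h j l y * k y m j *
        dxi G f ξ l i y := by
    rw [Finset.sum_comm]
    refine Finset.sum_congr rfl fun m _ => Finset.sum_congr rfl fun j _ => ?_
    rw [Finset.sum_comm]
    exact Finset.sum_congr rfl fun i _ => Finset.sum_congr rfl fun l _ => by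
      rw [hks j m]; ring
  have e3 : dot2 h k (lie G f ξ) y =
      ∑ m, ∑ j, ∑ i, ∑ l, Stmt.up h m i y * Stmt.up h j l y * k y m j * dxi G f ξ i l y +
      ∑ m, ∑ j, ∑ i, ∑ l, Stmt.up h m i y * Stmt.up h j l y * k y m j * dxi G f ξ l i y := by
    unfold dot2
    simp only [← Finset.sum_add_distrib, ← dxi_symm hS hy ξ]
    exact Finset.sum_congr rfl fun m _ => Finset.sum_congr rfl fun j _ =>
      Finset.sum_congr rfl fun i _ => Finset.sum_congr rfl fun l _ => by ring
  rw [e1, e3, ← e2]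
  ring

end Vale.Agent.P366.SH
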