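import Vale.Agent.P366.H353.S.B

/-! The derivative of the volume density of a hypersurface `t = f(y)`. -/

open MeasureTheory Metric Filter Topology Set
open scoped ContDiff

noncomputable section
namespace Vale.Agent.P366.SH
open Vale.Agent.P366.Stmt Vale.Agent.P366.T2 Vale.Agent.P366.GC
open Vale.Agent.P366.H896 (CR)
open Vale.Agent.P366.Kerr (pt tng con indG indK lapse ein)

variable {n : ℕ} {G : Stmt.Field (n + 1)} {f : E n → ℝ} {U : Set (E (n + 1))} {W : Set (E n)}
  {y : E n} {k : Stmt.Field n} {ξ : Fin (n + 1) → ℝ}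

lemma con_N' (hS : Sl G f U W) (hy : y ∈ W) :
    ∑ a, con f y a * Nv G f a y = (lapse G f y)⁻¹ := by
  have h1 := con_N (y := y) hS
  have h2 := lapse_sq hS hy
  have h3 := lapse_pos hS hy
  rw [h1]
  field_simp
  linarith

/-- the derivative of `1 / lapse` if `Γ^a_{ba} = 0` -/
theorem pd_vol (hS : Sl G f U W) (hy : y ∈ W)
    (hdet : ∀ b, ∑ a, Stmt.chr G a b a (pt (f y) y) = 0) (i : Fin n) :
    HP i (fun y => (lapse G f y)⁻¹)
      ((lapse G f y)⁻¹ * ∑ m, Stmt.chr (indG G f) m i m y) y := by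
  have hw := con_N' hS hy
  set w₀ := (lapse G f y)⁻¹ with hwd
  -- the derivative of the contraction `(dt - df)(N)`
  have hc : ∀ a, HP i (fun y => con f y a) (Stmt.pd i (fun y => con f y a) y) y := fun a =>
    CR.hp ((cr_con hS a).le (by norm_num : 0 + 1 ≤ 4)) hy i
  have hN : ∀ a, HP i (Nv G f a) (Stmt.pd i (Nv G f a) y) y := fun a =>
    CR.hp ((cr_N hS a).le (by norm_num : 0 + 1 ≤ 4)) hy i
  have h1 : HP i (fun y => ∑ a, con f y a * Nv G f a y)
      (∑ a, (Stmt.pd i (fun y => con f y a) y * Nv G f a y +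
        con f y a * Stmt.pd i (Nv G f a) y)) y := HP.sum _ fun a _ => (hc a).mul (hN a)
  have h2 : HP i (fun y => (lapse G f y)⁻¹)
      (∑ a, (Stmt.pd i (fun y => con f y a) y * Nv G f a y +
        con f y a * Stmt.pd i (Nv G f a) y)) y := h1.congr (by
      filter_upwards [hS.opW.mem_nhds hy] with z hz
      exact (con_N' hS hz).symm)
  convert h2 using 1
  rw [Finset.sum_add_distrib]
  -- the two parts
  have hpc : ∀ m : Fin n, Stmt.pd i (fun y => con f y m.succ) y =
      -Stmt.pd i (Stmt.pd m f) y := by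
    intro m
    have e1 : (fun y => con f y m.succ) = fun y => -Stmt.pd m f y := rfl
    rw [e1]
    have h3 : HP i (Stmt.pd m f) (Stmt.pd i (Stmt.pd m f) y) y :=
      CR.hp ((CR.pd hS.opW (hS.sf.le (by norm_num : 1 + 1 ≤ 6)) m).le
        (by norm_num : 0 + 1 ≤ 1)) hy i
    exact h3.neg.pd
  have hp0 : Stmt.pd i (fun y => con f y 0) y = 0 := (HP.const i 1 y).pd
  have A1 : ∑ a, Stmt.pd i (fun y => con f y a) y * Nv G f a y =
      -∑ m : Fin n, Stmt.pd i (Stmt.pd m f) y * Nv G f m.succ y := by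
    rw [Fin.sum_univ_succ, hp0, zero_mul, zero_add, ← Finset.sum_neg_distrib]
    exact Finset.sum_congr rfl fun m _ => by rw [hpc m]; ring
  set Γ : Fin (n + 1) → Fin (n + 1) → Fin (n + 1) → ℝ := fun a b c =>
    Stmt.chr G a b c (pt (f y) y) with hΓ
  have A2 : ∑ a, con f y a * Stmt.pd i (Nv G f a) y =
      -∑ a, con f y a * ∑ b, ∑ c, Γ a b c * Tv f i b y * Nv G f c y := by
    have b1 : ∀ a, Stmt.pd i (Nv G f a) y =
        ∑ k, ∑ l, Stmt.up (indG G f) k l y * indK G f y i k * Tv f l a y -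
          ∑ b, ∑ c, Γ a b c * Tv f i b y * Nv G f c y := by
      intro a
      have := weingarten hS hy i a
      unfold Dv at this
      rw [← this]
      simp only [hΓ]
      ring
    simp only [b1, mul_sub, Finset.sum_sub_distrib]
    have b2 : ∑ a, con f y a *
        ∑ k, ∑ l, Stmt.up (indG G f) k l y * indK G f y i k * Tv f l a y = 0 := by
      simp only [Finset.mul_sum]
      rw [Finset.sum_comm]
      refine Finset.sum_eq_zero fun k _ => ?_
      rw [Finset.sum_comm]
      refine Finset.sum_eq_zero fun l _ => ?_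
      have b3 : ∀ a, con f y a * (Stmt.up (indG G f) k l y * indK G f y i k * Tv f l a y) =
          (Stmt.up (indG G f) k l y * indK G f y i k) * (con f y a * Tv f l a y) := fun a => by
        ring
      simp only [b3, ← Finset.mul_sum]
      rw [con_T, mul_zero]
    rw [b2]
    ring
  rw [A1, A2]
  -- the Christoffel symbols of the induced metric
  have A3 : ∀ m, Stmt.chr (indG G f) m i m y =
      ∑ b, ∑ c, Γ m.succ b c * Tv f i b y * Tv f m c y - indK G f y i m * Nv G f m.succ y := by
    intro m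
    have h3 := gauss_formula hS hy i m m.succ
    unfold Dv at h3
    have e : Stmt.pd i (Tv f m m.succ) y = 0 := by
      have e : Tv f m m.succ = fun _ => (if m = m then 1 else 0 : ℝ) :=
        funext fun y => Tv_succ f m m y
      rw [e, (HP.const i _ y).pd]
    rw [e, zero_add] at h3
    have e2 : ∑ l, Stmt.chr (indG G f) l i m y * Tv f l m.succ y =
        Stmt.chr (indG G f) m i m y := by
      simp [Tv_succ]
    rw [e2] at h3
    simp only [hΓ]
    linarith
  have A4 : ∀ m, w₀ * indK G f y i m = Stmt.pd i (Stmt.pd m f) y +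
      ∑ a, con f y a * ∑ b, ∑ c, Γ a b c * Tv f i b y * Tv f m c y := by
    intro m
    have h3 := lapse_pos hS hy
    unfold indK
    rw [hwd, ← mul_assoc, inv_mul_cancel₀ h3.ne', one_mul]
    rfl
  -- `∑ N^m T_m`
  have A5 : ∀ c : Fin (n + 1), ∑ m : Fin n, Nv G f m.succ y * Tv f m c y =
      Nv G f c y - if c = 0 then w₀ else 0 := by
    intro c
    refine Fin.cases ?_ (fun j => ?_) c
    · rw [if_pos rfl, ← hw, Fin.sum_univ_succ]
      simp only [con_zero, con_succ, Tv_zero]
      have : ∀ m : Fin n, -Stmt.pd m f y * Nv G f m.succ y =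
          -(Nv G f m.succ y * Stmt.pd m f y) := fun m => by ring
      simp only [this, Finset.sum_neg_distrib]
      ring
    · rw [if_neg (Fin.succ_ne_zero j)]
      simp [Tv_succ]
  have A6 : ∑ a, con f y a * ∑ b, ∑ c, Γ a b c * Tv f i b y *
      (∑ m : Fin n, Nv G f m.succ y * Tv f m c y) =
      ∑ a, con f y a * ∑ b, ∑ c, Γ a b c * Tv f i b y * Nv G f c y -
        w₀ * ∑ a, con f y a * ∑ b, Γ a b 0 * Tv f i b y := by
    have b1 : ∀ a, con f y a * ∑ b, ∑ c, Γ a b c * Tv f i b y *
        (∑ m : Fin n, Nv G f m.succ y * Tv f m c y) =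
        con f y a * (∑ b, ∑ c, Γ a b c * Tv f i b y * Nv G f c y) -
          w₀ * (con f y a * ∑ b, Γ a b 0 * Tv f i b y) := by
      intro a
      have c1 : ∀ b, ∑ c, Γ a b c * Tv f i b y *
          (∑ m : Fin n, Nv G f m.succ y * Tv f m c y) =
          ∑ c, Γ a b c * Tv f i b y * Nv G f c y - w₀ * (Γ a b 0 * Tv f i b y) := by
        intro b
        simp only [A5, mul_sub, Finset.sum_sub_distrib]
        congr 1
        simp [mul_comm]
      simp only [c1, Finset.sum_sub_distrib, ← Finset.mul_sum]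
      ring
    simp only [b1, Finset.sum_sub_distrib, ← Finset.mul_sum]
  have A7 : ∑ a, con f y a * ∑ b, ∑ c, Γ a b c * Tv f i b y *
      (∑ m : Fin n, Nv G f m.succ y * Tv f m c y) =
      ∑ m : Fin n, Nv G f m.succ y *
        ∑ a, con f y a * ∑ b, ∑ c, Γ a b c * Tv f i b y * Tv f m c y := by
    have b1 : ∀ a, con f y a * ∑ b, ∑ c, Γ a b c * Tv f i b y *
        (∑ m : Fin n, Nv G f m.succ y * Tv f m c y) =
        ∑ m : Fin n, Nv G f m.succ y *
          (con f y a * ∑ b, ∑ c, Γ a b c * Tv f i b y * Tv f m c y) := by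
      intro a
      have c1 : ∀ b c, Γ a b c * Tv f i b y * (∑ m : Fin n, Nv G f m.succ y * Tv f m c y) =
          ∑ m : Fin n, Nv G f m.succ y * (Γ a b c * Tv f i b y * Tv f m c y) := by
        intro b c
        rw [Finset.mul_sum]
        exact Finset.sum_congr rfl fun m _ => by ring
      simp only [c1]
      have c2 : ∀ b, ∑ c, ∑ m : Fin n, Nv G f m.succ y * (Γ a b c * Tv f i b y * Tv f m c y) =
          ∑ m : Fin n, Nv G f m.succ y * ∑ c, Γ a b c * Tv f i b y * Tv f m c y := by
        intro b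
        rw [Finset.sum_comm]
        exact Finset.sum_congr rfl fun m _ => by rw [Finset.mul_sum]
      simp only [c2]
      rw [Finset.sum_comm, Finset.mul_sum]
      refine Finset.sum_congr rfl fun m _ => ?_
      rw [← Finset.mul_sum]
      ring
    simp only [b1]
    rw [Finset.sum_comm]
    exact Finset.sum_congr rfl fun m _ => by rw [← Finset.mul_sum]
  -- the trace of the Christoffel symbols of `G` vanishes
  have A8 : ∑ m : Fin n, ∑ b, ∑ c, Γ m.succ b c * Tv f i b y * Tv f m c y +
      ∑ a, con f y a * ∑ b, Γ a b 0 * Tv f i b y = 0 := by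
    have b1 : ∀ m : Fin n, ∑ b, ∑ c, Γ m.succ b c * Tv f i b y * Tv f m c y =
        ∑ b, (Γ m.succ b 0 * Stmt.pd m f y + Γ m.succ b m.succ) * Tv f i b y := by
      intro m
      refine Finset.sum_congr rfl fun b _ => ?_
      rw [Fin.sum_univ_succ]
      simp only [Tv_zero, Tv_succ]
      have : ∑ x : Fin n, Γ m.succ b x.succ * Tv f i b y * (if x = m then 1 else 0 : ℝ) =
          Γ m.succ b m.succ * Tv f i b y := by simp
      rw [this]
      ring
    simp only [b1]
    have b0 : ∑ a, con f y a * ∑ b, Γ a b 0 * Tv f i b y = 1 * ∑ b, Γ 0 b 0 * Tv f i b y +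
        ∑ m : Fin n, -Stmt.pd m f y * ∑ b, Γ m.succ b 0 * Tv f i b y := by
      rw [Fin.sum_univ_succ]
      rfl
    rw [b0, Finset.sum_comm]
    have b2 : ∑ m : Fin n, -Stmt.pd m f y * ∑ b, Γ m.succ b 0 * Tv f i b y =
        -∑ b, ∑ m : Fin n, Γ m.succ b 0 * Stmt.pd m f y * Tv f i b y := by
      rw [Finset.sum_comm, ← Finset.sum_neg_distrib]
      refine Finset.sum_congr rfl fun m _ => ?_
      rw [Finset.mul_sum, ← Finset.sum_neg_distrib]
      exact Finset.sum_congr rfl fun b _ => by ring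
    rw [b2, one_mul, ← Finset.sum_neg_distrib, ← Finset.sum_add_distrib,
      ← Finset.sum_add_distrib]
    refine Finset.sum_eq_zero fun b _ => ?_
    have h3 := hdet b
    rw [Fin.sum_univ_succ] at h3
    have b3 : ∑ m : Fin n, (Γ m.succ b 0 * Stmt.pd m f y + Γ m.succ b m.succ) * Tv f i b y =
        ∑ m : Fin n, Γ m.succ b 0 * Stmt.pd m f y * Tv f i b y +
          (∑ m : Fin n, Γ m.succ b m.succ) * Tv f i b y := by
      rw [Finset.sum_mul, ← Finset.sum_add_distrib]
      exact Finset.sum_congr rfl fun m _ => by ring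
    rw [b3]
    linear_combination (Tv f i b y) * h3
  -- conclusion
  have A9 : w₀ * ∑ m, Stmt.chr (indG G f) m i m y =
      w₀ * ∑ m : Fin n, ∑ b, ∑ c, Γ m.succ b c * Tv f i b y * Tv f m c y -
      ∑ m : Fin n, Stmt.pd i (Stmt.pd m f) y * Nv G f m.succ y -
      ∑ m : Fin n, Nv G f m.succ y *
        ∑ a, con f y a * ∑ b, ∑ c, Γ a b c * Tv f i b y * Tv f m c y := by
    rw [Finset.mul_sum, Finset.mul_sum, ← Finset.sum_sub_distrib, ← Finset.sum_sub_distrib]
    refine Finset.sum_congr rfl fun m _ => ?_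
    rw [A3 m]
    linear_combination (-Nv G f m.succ y) * A4 m
  rw [A9, ← A7, A6]
  linear_combination w₀ * A8

end Vale.Agent.P366.SH
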